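import Vale.Agent.P017.R3.H160.Smooth

/-! # P017 R3-B8b -/

set_option linter.all false

open Finset

namespace Vale.Agent.P017.R3.H160

open Vale.Agent.P017.R3

/-- the primes of `[2^i, 2^(i+2)]` -/
def Q (i : ℕ) : Finset ℕ := (Icc (2 ^ i) (2 ^ (i + 2))).filter Nat.Prime

lemma card_Q (i : ℕ) (hi : 1 ≤ i) : ((Q i).card : ℝ) ≤ 8 * 2 ^ i / i := by
  have hi0 : (0 : ℝ) < i := by exact_mod_cast hi
  have h2 : 0 < Real.log 2 := Real.log_pos (by norm_num)
  rw [le_div_iff₀ hi0]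
  have h1 : ((Q i).card : ℝ) * (i * Real.log 2) ≤ Chebyshev.theta ((2 ^ (i + 2) : ℕ) : ℝ) := by
    rw [Chebyshev.theta_eq_sum_Icc, Nat.floor_natCast]
    calc ((Q i).card : ℝ) * (i * Real.log 2) = ∑ p ∈ Q i, (i * Real.log 2) := by
          rw [sum_const, nsmul_eq_mul]
      _ ≤ ∑ p ∈ Q i, Real.log p := by
          apply sum_le_sum
          intro p hp
          rw [Q, mem_filter, mem_Icc] at hp
          rw [← Real.log_pow]
          apply Real.log_le_log (by positivity)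
          exact_mod_cast hp.1.1
      _ ≤ ∑ p ∈ (Icc 0 (2 ^ (i + 2))).filter Nat.Prime, Real.log p := by
          apply sum_le_sum_of_subset_of_nonneg
          · intro p hp
            rw [Q, mem_filter, mem_Icc] at hp
            rw [mem_filter, mem_Icc]
            exact ⟨⟨Nat.zero_le _, hp.1.2⟩, hp.2⟩
          · intro p hp _
            rw [mem_filter] at hp
            exact Real.log_nonneg (by exact_mod_cast hp.2.one_lt.le)
  have h3 := Chebyshev.theta_le_log4_mul_x (x := ((2 ^ (i + 2) : ℕ) : ℝ)) (by positivity)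
  have h4 : Real.log 4 = 2 * Real.log 2 := by
    rw [show (4 : ℝ) = 2 ^ 2 by norm_num, Real.log_pow]; norm_num
  rw [h4] at h3
  push_cast at h3
  have h5 : (((Q i).card : ℝ) * i) * Real.log 2 ≤ (8 * 2 ^ i) * Real.log 2 := by
    calc (((Q i).card : ℝ) * i) * Real.log 2 = ((Q i).card : ℝ) * (i * Real.log 2) := by ring
      _ ≤ Chebyshev.theta ((2 ^ (i + 2) : ℕ) : ℝ) := h1
      _ ≤ 2 * Real.log 2 * 2 ^ (i + 2) := by push_cast; exact h3
      _ = (8 * 2 ^ i) * Real.log 2 := by ring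
  exact le_of_mul_le_mul_right h5 h2

open Classical in
theorem stmtSame : StmtSame := by
  intro a δ ha hδ
  obtain ⟨K, hK⟩ := exists_nat_ge (128 / δ)
  have hX0 : ∃ X₀ : ℕ, ∀ X : ℕ, X₀ ≤ X → (2 : ℝ) ^ (K + 1) ≤ (X : ℝ) ^ a := by
    have h := (tendsto_rpow_atTop ha).comp tendsto_natCast_atTop_atTop
    have h2 := h.eventually_ge_atTop ((2 : ℝ) ^ (K + 1))
    rw [Filter.eventually_atTop] at h2
    exact h2
  obtain ⟨X₀, hX₀⟩ := hX0
  refine ⟨X₀, ?_⟩
  intro X hX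
  have hXa := hX₀ X hX
  have hsub : (Icc 1 X).filter (fun d => ∃ p q : ℕ, p.Prime ∧ q.Prime ∧ (X : ℝ) ^ a < p ∧ p < q ∧
      q ≤ 2 * p ∧ p * q ∣ d) ⊆ (Ioo K (X + 1)).biUnion (fun i => (Q i ×ˢ Q i).biUnion
        (fun pq => (Icc 1 X).filter (fun d => pq.1 * pq.2 ∣ d))) := by
    intro d hd
    rw [mem_filter, mem_Icc] at hd
    obtain ⟨⟨hd1, hd2⟩, p, q, hp, hq, h1, h2, h3, h4⟩ := hd
    have hp0 : p ≠ 0 := hp.ne_zero
    rw [mem_biUnion]
    have hl1 : 2 ^ Nat.log 2 p ≤ p := Nat.pow_log_le_self 2 hp0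
    have hl2 : p < 2 ^ (Nat.log 2 p + 1) := Nat.lt_pow_succ_log_self (by norm_num) p
    have hpd : p ≤ d := Nat.le_of_dvd (by omega) (dvd_trans (dvd_mul_right p q) h4)
    refine ⟨Nat.log 2 p, ?_, ?_⟩
    · rw [mem_Ioo]
      constructor
      · have h5 : (2 : ℝ) ^ (K + 1) < (2 : ℝ) ^ (Nat.log 2 p + 1) := by
          calc (2 : ℝ) ^ (K + 1) ≤ (X : ℝ) ^ a := hXa
            _ < p := h1
            _ < (2 : ℝ) ^ (Nat.log 2 p + 1) := by exact_mod_cast hl2
        have h6 : K + 1 < Nat.log 2 p + 1 := (pow_lt_pow_iff_right₀ (by norm_num)).mp h5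
        omega
      · have h7 : Nat.log 2 p < p := Nat.log_lt_self 2 hp0
        omega
    · rw [mem_biUnion]
      refine ⟨(p, q), ?_, ?_⟩
      · rw [mem_product]
        simp only [Q, mem_filter, mem_Icc]
        rw [pow_succ] at hl2
        rw [pow_add]
        refine ⟨⟨⟨hl1, ?_⟩, hp⟩, ⟨⟨?_, ?_⟩, hq⟩⟩
        · omega
        · omega
        · omega
      · rw [mem_filter, mem_Icc]
        exact ⟨⟨hd1, hd2⟩, h4⟩
  have hXn : (0 : ℝ) ≤ X := Nat.cast_nonneg X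
  have hpq : ∀ i ∈ Ioo K (X + 1), ((((Q i ×ˢ Q i).biUnion
        (fun pq => (Icc 1 X).filter (fun d => pq.1 * pq.2 ∣ d))).card : ℕ) : ℝ) ≤
        64 * X * ((i : ℝ) ^ 2)⁻¹ := by
    intro i hi
    rw [mem_Ioo] at hi
    have hi1 : 1 ≤ i := by omega
    have hi0 : (0 : ℝ) < i := by exact_mod_cast hi1
    calc ((((Q i ×ˢ Q i).biUnion
        (fun pq => (Icc 1 X).filter (fun d => pq.1 * pq.2 ∣ d))).card : ℕ) : ℝ)
        ≤ ∑ pq ∈ Q i ×ˢ Q i, (((Icc 1 X).filter (fun d => pq.1 * pq.2 ∣ d)).card : ℝ) := by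
          exact_mod_cast card_biUnion_le
      _ ≤ ∑ pq ∈ Q i ×ˢ Q i, (X / (2 ^ i * 2 ^ i) : ℝ) := by
          apply sum_le_sum
          intro pq hh
          rw [mem_product] at hh
          simp only [Q, mem_filter, mem_Icc] at hh
          obtain ⟨⟨⟨h1, _⟩, h2⟩, ⟨⟨h3, _⟩, h4⟩⟩ := hh
          have h5 : 1 ≤ pq.1 * pq.2 := Nat.mul_pos h2.pos h4.pos
          calc (((Icc 1 X).filter (fun d => pq.1 * pq.2 ∣ d)).card : ℝ)
              ≤ X / ((pq.1 * pq.2 : ℕ) : ℝ) := card_mult_le X _ h5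
            _ ≤ X / (2 ^ i * 2 ^ i) := by
                apply div_le_div_of_nonneg_left hXn (by positivity)
                have : 2 ^ i * 2 ^ i ≤ pq.1 * pq.2 := Nat.mul_le_mul h1 h3
                exact_mod_cast this
      _ = ((Q i).card * (Q i).card) * (X / (2 ^ i * 2 ^ i) : ℝ) := by
          rw [sum_const, card_product, nsmul_eq_mul]; push_cast; ring
      _ ≤ ((8 * 2 ^ i / i) * (8 * 2 ^ i / i)) * (X / (2 ^ i * 2 ^ i) : ℝ) := by
          apply mul_le_mul_of_nonneg_right _ (by positivity)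
          exact mul_le_mul (card_Q i hi1) (card_Q i hi1) (Nat.cast_nonneg _) (by positivity)
      _ = 64 * X * ((i : ℝ) ^ 2)⁻¹ := by
          field_simp
          ring
  have hfin : ((((Ioo K (X + 1)).biUnion (fun i => (Q i ×ˢ Q i).biUnion
        (fun pq => (Icc 1 X).filter (fun d => pq.1 * pq.2 ∣ d)))).card : ℕ) : ℝ) ≤ δ * X := by
    calc ((((Ioo K (X + 1)).biUnion (fun i => (Q i ×ˢ Q i).biUnion
        (fun pq => (Icc 1 X).filter (fun d => pq.1 * pq.2 ∣ d)))).card : ℕ) : ℝ)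
        ≤ ∑ i ∈ Ioo K (X + 1), ((((Q i ×ˢ Q i).biUnion
        (fun pq => (Icc 1 X).filter (fun d => pq.1 * pq.2 ∣ d))).card : ℕ) : ℝ) := by
          exact_mod_cast card_biUnion_le
      _ ≤ ∑ i ∈ Ioo K (X + 1), 64 * X * ((i : ℝ) ^ 2)⁻¹ := sum_le_sum hpq
      _ = 64 * X * ∑ i ∈ Ioo K (X + 1), ((i : ℝ) ^ 2)⁻¹ := by rw [mul_sum]
      _ ≤ 64 * X * (2 / (K + 1)) := by
          apply mul_le_mul_of_nonneg_left _ (by positivity)
          exact sum_Ioo_inv_sq_le K (X + 1)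
      _ ≤ δ * X := by
          have h128 : 0 < 128 / δ := by positivity
          have hK1 : (0 : ℝ) < K + 1 := by positivity
          have h1 : 128 / (K + 1 : ℝ) ≤ δ := by
            rw [div_le_iff₀ hK1]
            rw [div_le_iff₀ hδ] at hK
            nlinarith
          calc 64 * X * (2 / (K + 1 : ℝ)) = (128 / (K + 1 : ℝ)) * X := by ring
            _ ≤ δ * X := mul_le_mul_of_nonneg_right h1 hXn
  refine le_trans ?_ hfin
  exact_mod_cast card_le_card hsub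

end Vale.Agent.P017.R3.H160
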